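import Vale.Agent.P263B6.Defs
import Vale.Agent.P263.FR.Kv

/-!
# P263, Arf invariant: the rows of the statement layer
-/

open CategoryTheory OnePoint

namespace Vale.Agent.P263A

open Vale.Agent.P263 Vale.Agent.P263.FR Vale.Agent.P263.E Vale.Agent.P263.G2 Vale.Agent.P263.TJ

/-- symplectic bases exist, and the Arf invariant is the value of the majority -/
def ALG : Prop :=
  ∀ (V : Type) [AddCommGroup V] [Module (ZMod 2) V] [Finite V] (B : V → V → ZMod 2)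
    (φ : V → ZMod 2), (∀ x y, φ (x + y) = φ x + φ y + B x y) →
    (∀ x y z, B (x + y) z = B x z + B y z) → (∀ x, (∀ y, B x y = 0) → x = 0) →
    (∃ (r : ℕ) (e : Module.Basis (Fin r ⊕ Fin r) (ZMod 2) V), IsSymplectic B e) ∧
      ∀ (r : ℕ) (e : Module.Basis (Fin r ⊕ Fin r) (ZMod 2) V), IsSymplectic B e →
        (arf φ e = 1 ↔ Nat.card V < 2 * Nat.card {x : V // φ x = 1})

/-- the cup product is well defined and is computed by `Cc.cup 1` -/
def CUP : Prop :=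
  ∀ (X : TopCat.{0}) (p q n : ℕ) (h : p + q = n),
    (∀ (x : Coh p X) (y : Coh q X), ∃! w : Coh n X, IsCup h x y w) ∧
      ∀ (u v : Cc (sing X)), Cc.IsDeg p u → Cc.IsDeg q v → ∀ (du : Cc.d u = 0) (dv : Cc.d v = 0)
        (duv : Cc.d (Cc.cup 1 u v) = 0),
        cup h (FR.cl p u du) (FR.cl q v dv) = FR.cl n (Cc.cup 1 u v) duv

/-- a regular map has a tubular neighbourhood, and all collapse maps are homotopic -/
def TUB : Prop :=
  ∀ (m K : ℕ) (F : ST.Sph m ⟶ ST.Sph K), F (ST.pt m) = ST.pt K → Regular F →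
    ∃ (D : Tub m K) (l : Mfd D.F ≃ₜ Mfd F), ∀ (c : ST.Sph m ⟶ Th K (Mfd F)), IsCollapse F c →
      ∀ cN : C(OnePoint (Fin m → ℝ), OnePoint ((Fin K → ℝ) × Mfd F)), (∀ w, c w = cN w) →
        cN.HomotopicRel (D.lc (l : C(Mfd D.F, Mfd F))) {∞}

/-- the fundamental class -/
def FUND : Prop :=
  ∀ (d i : ℕ) (F : ST.Sph (d + (i + 1)) ⟶ ST.Sph (i + 1)), 0 < d →
    F (ST.pt (d + (i + 1))) = ST.pt (i + 1) → Regular F →
    (∃! z : (ST.H d).obj (Mfd F), IsFund z) ∧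
      ∀ (c : ST.Sph (d + (i + 1)) ⟶ Th (i + 1) (Mfd F)) (z : (ST.H d).obj (Mfd F)),
        IsCollapse F c → IsFund z → ∀ [CompactSpace (Mfd F)] [T2Space (Mfd F)]
        (cN : C(T0.Sph (d + (i + 1)), TT (i + 1) (Mfd F))), (∀ w, c w = cN w) →
        ∀ (u : Cc (sing (Mfd F))) (hu : Cc.IsDeg d u) (du : Cc.d u = 0),
          FR.Int (d := d) (i := i) cN hu du = FR.cl (X := Mfd F) d u du z

/-- Brown's theorem -/
def CONV : Prop :=
  ∀ (N : Type) [TopologicalSpace N] [CompactSpace N] [T2Space N] (q i : ℕ), 0 < q →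
    ∀ (c : C(T0.Sph (q + q + (i + 1)), TT (i + 1) N)) (hc : c ∞ = ∞) (x x₀ : Cc (sing N))
      (hx : Cc.IsDeg q x) (dx : Cc.d x = 0) (hx₀ : Cc.IsDeg q x₀) (dx₀ : Cc.d x₀ = 0),
      Phi (d := q + q) c hc hx₀ dx₀ = 1 → Phi (d := q + q) c hc hx dx = 0 →
      PhiZero (m := q + q + (i + 1)) (n := i + 1) (N := TopCat.of N) (TopCat.ofHom c)
        (FR.cl (X := TopCat.of N) q x dx)

end Vale.Agent.P263A
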