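import Vale.Agent.P263.FR.Def

/-!
# P263: the Arf invariant of the quadratic form of a framed manifold

* `Ch X`, `sx σ` : the singular chain complex over `𝔽₂`, the chain of a singular simplex.
* `Represents u x` : the cochain `u` represents the class `x ∈ Hⁿ(X; 𝔽₂) = Hom (Hₙ(X; 𝔽₂), 𝔽₂)`.
* `IsCup h x y w`, `cup h x y` : the cup product (front face times back face).
* `IsFund z` : `z = [N]`, the mod 2 fundamental class.
* `phi c x` : the value `φ(x) ∈ 𝔽₂` of the quadratic form of the framed manifold.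
* `IsSymplectic B e`, `arf φ e` : symplectic basis `a₁, …, a_r, b₁, …, b_r`; `∑ φ(aᵢ) φ(bᵢ)`.
* `IsArfForm B φ` : `φ` is a quadratic refinement of the nonsingular form `B`, symplectic bases
  exist, and all give the same Arf invariant.
* `KervArf g` : Kervaire invariant one.
-/

open CategoryTheory

namespace Vale.Agent.P263A

open Vale.Agent.P263.ST Vale.Agent.P263.FR

section chains

open Simplicial

/-- The singular chain complex of `X` over `𝔽₂`. Its homology is `H`. -/
noncomputable def Ch (X : TopCat.{0}) : ChainComplex (ModuleCat.{0} (ZMod 2)) ℕ :=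
  (TopCat.toSSet.obj X).chainComplex (ModuleCat.of (ZMod 2) (ZMod 2))

/-- The chain of the face of the singular `n`-simplex `σ` with the vertices `j, …, j + l`. -/
noncomputable def face {X : TopCat.{0}} {n : ℕ} (σ : (TopCat.toSSet.obj X) _⦋n⦌) (j l : ℕ)
    (h : j + l ≤ n) : (Ch X).X l :=
  ((TopCat.toSSet.obj X).ιChainComplex (R := ModuleCat.of (ZMod 2) (ZMod 2))
    ((TopCat.toSSet.obj X).map (SimplexCategory.subinterval j l h).op σ)).hom (1 : ZMod 2)

/-- The cochain `u` represents the class `x`: `x [z] = u z` for all cycles `z`. -/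
def Represents {X : TopCat.{0}} {n : ℕ} (u : (Ch X).X n →ₗ[ZMod 2] ZMod 2) (x : Coh n X) : Prop :=
  ∀ z : (Ch X).cycles n, x (((Ch X).homologyπ n).hom z) = u (((Ch X).iCycles n).hom z)

/-- `w = x ∪ y`: the classes are represented by cochains `u`, `v`, `t` with
`t σ = u (σ|[0, …, p]) · v (σ|[p, …, p + q])`. -/
def IsCup {X : TopCat.{0}} {p q n : ℕ} (h : p + q = n) (x : Coh p X) (y : Coh q X) (w : Coh n X) :
    Prop :=
  ∃ u v t, Represents u x ∧ Represents v y ∧ Represents t w ∧
    ∀ σ : (TopCat.toSSet.obj X) _⦋n⦌, t (face σ 0 n (by omega)) =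
      u (face σ 0 p (by omega)) * v (face σ p q h.le)

end chains

/-- The cup product `x ∪ y`. -/
noncomputable def cup {X : TopCat.{0}} {p q n : ℕ} (h : p + q = n) (x : Coh p X) (y : Coh q X) :
    Coh n X :=
  Classical.epsilon (IsCup h x y)

/-- The inclusion of `N ∖ {p}` in `N`. -/
def punct {N : TopCat.{0}} (p : N) : TopCat.of {x : N // x ≠ p} ⟶ N :=
  TopCat.ofHom ⟨Subtype.val, continuous_subtype_val⟩

/-- `z` is the fundamental class `[N]`: for every `p` its image in `H_d(N, N ∖ p; 𝔽₂) = 𝔽₂` is not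
zero, that is (exact sequence of the pair), `z` does not come from `H_d(N ∖ p; 𝔽₂)`. -/
def IsFund {d : ℕ} {N : TopCat.{0}} (z : (H d).obj N) : Prop :=
  ∀ p : N, z ∉ Set.range ((H d).map (punct p)).hom

/-- The value `φ(x) ∈ π^S_{2q}(K(𝔽₂, q)) = 𝔽₂` of the form of the framed manifold `N` with
collapse map `c`. -/
noncomputable def phi {m n q : ℕ} {N : TopCat.{0}} (c : Sph m ⟶ Th n N) (x : Coh q N) : ZMod 2 :=
  Set.indicator {x | ¬ PhiZero c x} 1 x

section algebra

variable {V : Type} [AddCommGroup V] [Module (ZMod 2) V]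

/-- `aᵢ = e (inl i)`, `bᵢ = e (inr i)` is a symplectic basis for `B`. -/
def IsSymplectic (B : V → V → ZMod 2) {r : ℕ} (e : Module.Basis (Fin r ⊕ Fin r) (ZMod 2) V) :
    Prop :=
  ∀ i j, B (e (.inl i)) (e (.inl j)) = 0 ∧ B (e (.inr i)) (e (.inr j)) = 0 ∧
    B (e (.inl i)) (e (.inr j)) = if i = j then 1 else 0

/-- The Arf invariant `∑ φ(aᵢ) φ(bᵢ)`. -/
noncomputable def arf (φ : V → ZMod 2) {r : ℕ} (e : Module.Basis (Fin r ⊕ Fin r) (ZMod 2) V) : ZMod 2 :=
  ∑ i, φ (e (.inl i)) * φ (e (.inr i))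

/-- `φ` is a quadratic refinement of `B`, `B` is nonsingular, there is a symplectic basis, and the
Arf invariant is the same for all symplectic bases. -/
def IsArfForm (B : V → V → ZMod 2) (φ : V → ZMod 2) : Prop :=
  (∀ x y, φ (x + y) = φ x + φ y + B x y) ∧ (∀ x, (∀ y, B x y = 0) → x = 0) ∧
    ∃ (r : ℕ) (e : Module.Basis (Fin r ⊕ Fin r) (ZMod 2) V), IsSymplectic B e ∧
      ∀ (r' : ℕ) (e' : Module.Basis (Fin r' ⊕ Fin r') (ZMod 2) V), IsSymplectic B e' →
        arf φ e' = arf φ e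

end algebra

/-- **Kervaire invariant one**: a representative `S^{d+n} → Sⁿ` of `g` is homotopic to a map `F`
which is smooth near the framed manifold `N = F⁻¹(0)` of dimension `d = 2q`, `q` odd, and the form
`φ` on `H^q(N; 𝔽₂)` has Arf invariant one for the pairing `⟨x ∪ y, [N]⟩`. -/
def KervArf {d : ℕ} (g : BMap d) : Prop :=
  ∃ (q n : ℕ) (h : q + q = d) (F₀ F : Sph (d + n) ⟶ Sph n) (c : Sph (d + n) ⟶ Th n (Mfd F))
    (z : (H d).obj (Mfd F)) (r : ℕ) (e : Module.Basis (Fin r ⊕ Fin r) (ZMod 2) (Coh q (Mfd F))),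
    Odd q ∧ Rep g F₀ ∧ Htpc (pt (d + n)) F₀ F ∧ Regular F ∧ IsCollapse F c ∧ IsFund z ∧
      IsSymplectic (fun x y => cup h x y z) e ∧ arf (phi c) e = 1

/-- `V_d`: the span of the classes `h_d(g)`, where `g` is one of `±η`, `±ν`, `±σ` or has Kervaire
invariant one. -/
noncomputable def VArf (d : ℕ) : Submodule (ZMod 2) ((H d).obj Q0S0) :=
  Submodule.span (ZMod 2) (hur '' {g : BMap d | IsHopf g ∨ KervArf g})

end Vale.Agent.P263A
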