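import Vale.Agent.P263B6.Tub
import Vale.Agent.P263B14.AlgRow

/-!
# P263, Arf invariant: the assembly of the statement layer
-/

open CategoryTheory OnePoint Topology

namespace Vale.Agent.P263A

open Vale.Agent.P263 Vale.Agent.P263.FR Vale.Agent.P263.E Vale.Agent.P263.G2 Vale.Agent.P263.TJ

/-- the class zero has the value zero -/
theorem phiZero_zero {m n q : ℕ} {N : TopCat.{0}} [CompactSpace N] [T2Space N]
    (c : ST.Sph m ⟶ Th n N) (hc : c (ST.pt m) = ∞) : PhiZero c (0 : Coh q N) := by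
  let a : C(T0.Sph m, TT n Unit) := (thm (ContinuousMap.const N ())).comp c.hom
  have ha : a ∞ = ∞ := by
    show thm _ (c (ST.pt m)) = ∞
    rw [hc]
    rfl
  exact ⟨TopCat.of Unit, TopCat.ofHom (ContinuousMap.const N ()), 0, (),
    inferInstanceAs (CompactSpace Unit), inferInstanceAs (T2Space Unit), LinearMap.zero_comp _,
    0, (susC 0 a ha).comp ContinuousMap.snd, fun _ => rfl, fun _ => rfl, fun _ => rfl⟩

theorem phi_eq_zero {m n q : ℕ} {N : TopCat.{0}} {c : ST.Sph m ⟶ Th n N} {x : Coh q N}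
    (h : PhiZero c x) : phi c x = 0 := Set.indicator_of_notMem (not_not.2 h) _

theorem phi_eq_one {m n q : ℕ} {N : TopCat.{0}} {c : ST.Sph m ⟶ Th n N} {x : Coh q N}
    (h : ¬ PhiZero c x) : phi c x = 1 := Set.indicator_of_mem (s := {x | ¬ PhiZero c x}) h _

theorem phi_eq_one_iff {m n q : ℕ} {N : TopCat.{0}} {c : ST.Sph m ⟶ Th n N} {x : Coh q N} :
    phi c x = 1 ↔ ¬ PhiZero c x :=
  ⟨fun h h' => zero_ne_one ((phi_eq_zero h').symm.trans h), phi_eq_one⟩

/-! ### the empty manifold -/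

theorem coh_empty {N : TopCat.{0}} [IsEmpty N] {j : ℕ} (x : Coh j N) : x = 0 := by
  obtain ⟨u, du, hu, rfl⟩ := exists_cl x
  refine (cl_eq_zero_iff du hu).2 ⟨0, ?_⟩
  rw [d_zero]
  funext p σ
  exact isEmptyElim (toC σ (Classical.arbitrary _))

theorem h_empty {N : TopCat.{0}} [IsEmpty N] {j : ℕ} (z : (ST.H j).obj N) : z = 0 :=
  (Module.forall_dual_apply_eq_zero_iff (ZMod 2) z).1 fun x => by
    rw [coh_empty (N := N) (j := j) x]
    rfl

theorem isEmpty_Mfd {m : ℕ} (hm : 0 < m) {F : ST.Sph m ⟶ ST.Sph 0} (hF : F (ST.pt m) = ST.pt 0) :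
    IsEmpty (Mfd F) := by
  refine ⟨fun v => ?_⟩
  have h1 : Nonempty (Fin m) := ⟨⟨0, hm⟩⟩
  have h3 : Continuous fun z : OnePoint (Fin m → ℝ) => (show OnePoint (Fin 0 → ℝ) from F z) :=
    F.hom.continuous
  have h4 := (IsLocallyConstant.iff_continuous _).2 h3
  have h5 := h4.apply_eq_of_preconnectedSpace (v.1 : OnePoint (Fin m → ℝ)) ∞
  exact OnePoint.coe_ne_infty _ ((v.2.symm.trans h5).trans hF)

/-! ### nonsingularity for a regular map -/

theorem nondeg_reg {q i : ℕ} (hq : 0 < q) {F : ST.Sph (q + q + (i + 1)) ⟶ ST.Sph (i + 1)}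
    (hF : F (ST.pt _) = ST.pt _) (hR : Regular F) [CompactSpace (Mfd F)] [T2Space (Mfd F)]
    {c : ST.Sph (q + q + (i + 1)) ⟶ Th (i + 1) (Mfd F)} (hc : IsCollapse F c)
    {cN : C(T0.Sph (q + q + (i + 1)), TT (i + 1) (Mfd F))} (hcN : ∀ w, c w = cN w)
    (u : Cc (sing (Mfd F))) (hu : Cc.IsDeg q u) (du : Cc.d u = 0) (hne : ¬ ∃ a, u = Cc.d a) :
    ∃ (v : Cc (sing (Mfd F))) (hv : Cc.IsDeg q v) (dv : Cc.d v = 0),
      FR.Int (d := q + q) (i := i) cN (isDeg_cup1 hv hu) (d_cup1_zero dv du) ≠ 0 := by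
  obtain ⟨D, l, h⟩ := tub _ _ F hF hR
  have hM : CompactSpace (Mfd D.F) := D.compactSpace_Mfd
  have hM2 : T2Space (Mfd D.F) := D.t2Space_Mfd
  have hd : 0 < q + q := by omega
  have hinf : cN ∞ = ∞ := (hcN _).symm.trans (collapse_pt hF hc)
  obtain ⟨f, hf⟩ : ∃ f : C(Mfd D.F, Mfd F), f = l := ⟨_, rfl⟩
  obtain ⟨g, hg⟩ : ∃ g : C(Mfd F, Mfd D.F), g = l.symm := ⟨_, rfl⟩
  have hfg : ∀ w : Cc (sing (Mfd F)), Cc.pull (singMap g) (Cc.pull (singMap f) w) = w := by
    intro w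
    have e : f.comp g = ContinuousMap.id _ := by
      rw [hf, hg]
      exact ContinuousMap.ext fun x => l.apply_symm_apply x
    show Cc.pull (singMap (f.comp g)) w = w
    rw [e]
    rfl
  have hgf : ∀ w : Cc (sing (Mfd D.F)), Cc.pull (singMap f) (Cc.pull (singMap g) w) = w := by
    intro w
    have e : g.comp f = ContinuousMap.id _ := by
      rw [hf, hg]
      exact ContinuousMap.ext fun x => l.symm_apply_apply x
    show Cc.pull (singMap (g.comp f)) w = w
    rw [e]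
    rfl
  have du' : Cc.d (Cc.pull (singMap f) u) = 0 := by rw [← pull_d, du, pull_zero]
  obtain ⟨v, hv, dv, h1⟩ := D.nondeg hq (Cc.pull (singMap f) u) (hu.pull _) du' (by
    rintro ⟨a, ha⟩
    exact hne ⟨Cc.pull (singMap g) a, by rw [← pull_d, ← ha, hfg]⟩)
  have dv' : Cc.d (Cc.pull (singMap g) v) = 0 := by rw [← pull_d, dv, pull_zero]
  refine ⟨Cc.pull (singMap g) v, hv.pull _, dv', fun h2 => h1 ?_⟩
  have e : D.lc f = (thm f).comp (⟨D.c0, D.continuous_c0⟩ : C(T0.Sph (q + q + (i + 1)),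
      TT (i + 1) (Mfd D.F))) := ContinuousMap.ext fun z => D.lc_apply f z
  have h3 := h c hc cN hcN
  rw [← hf, e] at h3
  have h4 : Cc.pull (singMap f) (Cc.cup 1 (Cc.pull (singMap g) v) u) =
      Cc.cup 1 v (Cc.pull (singMap f) u) := by rw [pull_cup, hgf]
  rw [Int_htpy hd hinf h3, Int_nat f hd D.c0_infty _ _
    (by rw [h4]; exact isDeg_cup1 hv (hu.pull _)) (by rw [h4]; exact d_cup1_zero dv du')] at h2
  have h5 : ∀ (w : Cc (sing (Mfd D.F))) (hw : Cc.IsDeg (q + q) w) (dw : Cc.d w = 0),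
      w = Cc.cup 1 v (Cc.pull (singMap f) u) →
      FR.Int (d := q + q) (i := i) (⟨D.c0, D.continuous_c0⟩ : C(T0.Sph (q + q + (i + 1)),
        TT (i + 1) (Mfd D.F))) hw dw = 0 →
      FR.Int (d := q + q) (i := i) (⟨D.c0, D.continuous_c0⟩ : C(T0.Sph (q + q + (i + 1)),
        TT (i + 1) (Mfd D.F))) (isDeg_cup1 hv (hu.pull _)) (d_cup1_zero dv du') = 0 := by
    rintro _ _ _ rfl h6
    exact h6
  exact h5 _ _ _ h4 h2

theorem finite_coh_reg {m K : ℕ} {F : ST.Sph m ⟶ ST.Sph K} (hF : F (ST.pt _) = ST.pt _)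
    (hR : Regular F) (q : ℕ) : Finite (Coh q (Mfd F)) := by
  obtain ⟨D, l, -⟩ := tub _ _ F hF hR
  have := D.finite_coh q
  exact Finite.of_equiv _ (cohIso (q := q) (TopCat.isoOfHomeo l)).toEquiv.symm

/-! ### the form of a framed manifold -/

theorem z2 (a : ZMod 2) : a = 0 ∨ a = 1 := by
  revert a
  decide

theorem arfForm_succ (hcup : CUP) (hfund : FUND) (hconv : CONV) {q i : ℕ} (hq : 0 < q)
    {F : ST.Sph (q + q + (i + 1)) ⟶ ST.Sph (i + 1)} (hF : F (ST.pt _) = ST.pt _) (hR : Regular F)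
    {c : ST.Sph (q + q + (i + 1)) ⟶ Th (i + 1) (Mfd F)} (hc : IsCollapse F c)
    {z : (ST.H (q + q)).obj (Mfd F)} (hz : IsFund z) :
    IsArfForm (fun x y : Coh q (Mfd F) => cup rfl x y z) (phi c) ∧
      ∀ x y w : Coh q (Mfd F), cup rfl (x + y) w z = cup rfl x w z + cup rfl y w z := by
  have hN : CompactSpace (Mfd F) := compactSpace_Mfd hF
  have hN2 : T2Space (Mfd F) := t2Space_Mfd
  have hfin := finite_coh_reg hF hR q
  have hqd : q < q + q := by omega
  let cN : C(T0.Sph (q + q + (i + 1)), TT (i + 1) (Mfd F)) := c.hom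
  have hcN : ∀ w, c w = cN w := fun _ => rfl
  have hinf : cN ∞ = ∞ := collapse_pt hF hc
  let Q : QF (Mfd F) q := QF.ofC (d := q + q) (i := i) hq hqd cN hinf (nondeg_reg hq hF hR hc hcN)
  have hB : ∀ x y : Coh q (Mfd F), cup rfl x y z = Q.bil x y := by
    intro x y
    obtain ⟨u, du, hu, rfl⟩ := exists_cl x
    obtain ⟨v, dv, hv, rfl⟩ := exists_cl y
    rw [(hcup (Mfd F) q q (q + q) rfl).2 u v hu hv du dv (d_cup1_zero du dv)]
    refine Eq.trans ?_ (Q.bil_cl u v hu hv du dv).symm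
    exact ((hfund (q + q) i F (by omega) hF hR).2 c z hc hz cN hcN _ (isDeg_cup1 hu hv)
      (d_cup1_zero du dv)).symm
  have hφ : ∀ x : Coh q (Mfd F), phi c x = Q.phi x := by
    intro x
    by_cases hx : PhiZero c x
    · obtain ⟨u, du, hu, rfl⟩ := exists_cl x
      rw [phi_eq_zero hx]
      refine Eq.trans ?_ (Q.phi_cl u hu du).symm
      exact (Phi_of_phiZeroT hq hqd hinf hcN hx hu du rfl).symm
    · rw [phi_eq_one hx]
      refine ((z2 (Q.phi x)).resolve_left fun h0 => hx ?_).symm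
      by_cases h1 : ∃ x₀, Q.phi x₀ = 1
      · obtain ⟨x₀, h1⟩ := h1
        obtain ⟨u, du, hu, rfl⟩ := exists_cl x
        obtain ⟨v, dv, hv, rfl⟩ := exists_cl x₀
        exact hconv (Mfd F) q i hq cN hinf u v hu du hv dv ((Q.phi_cl v hv dv).symm.trans h1)
          ((Q.phi_cl u hu du).symm.trans h0)
      · have h2 : ∀ y, Q.phi y = 0 := fun y => (z2 _).resolve_right fun h => h1 ⟨y, h⟩
        have h3 : x = 0 := Q.bil_nonsing x fun y => by
          have h4 := Q.phi_add y x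
          rw [h2, h2, h2, zero_add, zero_add] at h4
          exact h4.symm
        rw [h3]
        exact phiZero_zero c hinf
  have e1 : (fun x y : Coh q (Mfd F) => cup rfl x y z) = Q.bil :=
    funext fun x => funext fun y => hB x y
  have e2 : phi c = Q.phi := funext hφ
  refine ⟨?_, fun x y w => ?_⟩
  · rw [e1, e2]
    refine P263B14.isArfForm Q.phi_add Q.bil_add fun x hx => Q.bil_nonsing x fun y => ?_
    exact (P263B14.symm_of_quad Q.phi_add y x).trans (hx y)
  · rw [hB, hB, hB]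
    exact Q.bil_add x y w

/-- **The form of a framed manifold.** -/
theorem framed (hcup : CUP) (hfund : FUND) (hconv : CONV) (d q n : ℕ) (h : q + q = d)
    (F : ST.Sph (d + n) ⟶ ST.Sph n) (hq : 0 < q) (hF : F (ST.pt _) = ST.pt _) (hR : Regular F) :
    (∃! z : (ST.H d).obj (Mfd F), IsFund z) ∧
      ∀ (c : ST.Sph (d + n) ⟶ Th n (Mfd F)) (z : (ST.H d).obj (Mfd F)), IsCollapse F c →
        IsFund z → IsArfForm (fun x y : Coh q (Mfd F) => cup h x y z) (phi c) ∧
          ∀ x y w : Coh q (Mfd F), cup h (x + y) w z = cup h x w z + cup h y w z := by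
  subst h
  cases n with
  | zero =>
    have hE : IsEmpty (Mfd F) := isEmpty_Mfd (by omega) hF
    refine ⟨⟨0, fun p => isEmptyElim p, fun z _ => h_empty z⟩, fun c z hc _ => ?_⟩
    have hN : CompactSpace (Mfd F) := compactSpace_Mfd hF
    have hN2 : T2Space (Mfd F) := t2Space_Mfd
    have hfin := finite_coh_reg hF hR q
    have h0 : ∀ x y : Coh q (Mfd F), cup (rfl : q + q = q + q) x y z = 0 := fun x y => by
      rw [h_empty z, map_zero]
    have h1 : ∀ x : Coh q (Mfd F), phi c x = 0 := fun x => by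
      rw [coh_empty x]
      exact phi_eq_zero (phiZero_zero c (collapse_pt hF hc))
    have h2 : ∀ x y w : Coh q (Mfd F), cup (rfl : q + q = q + q) (x + y) w z =
        cup rfl x w z + cup rfl y w z := fun x y w => by rw [h0, h0, h0, add_zero]
    refine ⟨P263B14.isArfForm (fun x y => ?_) h2 fun x _ => coh_empty x, h2⟩
    rw [h1, h1, h1, h0, add_zero, add_zero]
  | succ i =>
    exact ⟨(hfund (q + q) i F (by omega) hF hR).1, fun c z hc hz =>
      arfForm_succ hcup hfund hconv hq hF hR hc hz⟩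

/-- the majority form implies the Arf form -/
theorem kervArf_of_kerv (hcup : CUP) (hfund : FUND) (hconv : CONV) {d : ℕ} {g : ST.BMap d}
    (h : Kerv g) : KervArf g := by
  obtain ⟨q, n, F₀, F, c, hd, hodd, hrep, hh, hR, hc, hfin, hcard⟩ := h
  have hF : F (ST.pt _) = ST.pt _ := (hh.fst_eq_snd rfl).symm.trans hrep.1
  have hqq : q + q = d := by omega
  obtain ⟨⟨z, hz, -⟩, h2⟩ := framed hcup hfund hconv d q n hqq F hodd.pos hF hR
  obtain ⟨⟨h3, h4, r, e, he, -⟩, h5⟩ := h2 c z hc hz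
  refine ⟨q, n, hqq, F₀, F, c, z, r, e, hodd, hrep, hh, hR, hc, hz, he, ?_⟩
  refine ((P263B14.alg _ _ _ h3 h5 h4).2 r e he).2 ?_
  rwa [Nat.card_congr (Equiv.subtypeEquivRight fun x => phi_eq_one_iff (c := c) (x := x))]

/-- **Pontryagin-Thom**: every element has a framed manifold. -/
theorem exists_framed (d : ℕ) (g : ST.BMap d) (hd : 0 < d) :
    ∃ (n : ℕ) (F₀ F : ST.Sph (d + n) ⟶ ST.Sph n) (c : ST.Sph (d + n) ⟶ Th n (Mfd F)),
      ST.Rep g F₀ ∧ ST.Htpc (ST.pt (d + n)) F₀ F ∧ Regular F ∧ IsCollapse F c := by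
  obtain ⟨n, -, F₀, hrep⟩ := ST.exists_rep hd g 0
  have h3 : Continuous fun z : OnePoint (Fin (d + n) → ℝ) =>
      (show OnePoint (Fin n → ℝ) from F₀ z) := F₀.hom.continuous
  let γ : C(OnePoint (Fin (d + n) → ℝ), OnePoint ((Fin n → ℝ) × Unit)) :=
    ⟨fun z => prT (show OnePoint (Fin n → ℝ) from F₀ z) (),
      continuous_prT h3 fun _ _ => continuousAt_const⟩
  have hγ : γ ∞ = ∞ := congrArg (fun w : OnePoint (Fin n → ℝ) => prT w ()) hrep.1
  obtain ⟨D, l, h⟩ := exists_tub γ hγ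
  refine ⟨n, F₀, D.F, D.c, hrep, ?_, D.regular, D.isCollapse⟩
  have h1 := h.comp_continuousMap (⟨fstT, continuous_fstT⟩ :
    C(OnePoint ((Fin n → ℝ) × Unit), OnePoint (Fin n → ℝ)))
  have e1 : (⟨fstT, continuous_fstT⟩ : C(OnePoint ((Fin n → ℝ) × Unit),
      OnePoint (Fin n → ℝ))).comp γ = F₀.hom := ContinuousMap.ext fun z => map_fst_prT _ _
  have e2 : (⟨fstT, continuous_fstT⟩ : C(OnePoint ((Fin n → ℝ) × Unit),
      OnePoint (Fin n → ℝ))).comp (D.lc l) = D.F.hom :=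
    ContinuousMap.ext fun z => map_fst_pairS (fun _ h => h) z
  rw [e1, e2] at h1
  exact h1

theorem curtisArfElt (hcup : CUP) (hfund : FUND) (hconv : CONV) (d : ℕ) (g : ST.BMap d)
    (hd : 0 < d) (hg : ST.hur g ≠ 0) : (d = 1 ∨ d = 3 ∨ d = 7) ∨ KervArf g :=
  (curtisFrElt d g hd hg).imp id (kervArf_of_kerv hcup hfund hconv)

/-- **Curtis's conjecture, with the Arf invariant.** -/
theorem curtisArf (hcup : CUP) (hfund : FUND) (hconv : CONV) (d : ℕ) (hd : 0 < d) :
    Set.range (ST.hur (d := d)) = VArf d := by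
  apply Set.Subset.antisymm
  · rw [curtisFr d hd]
    exact Submodule.span_mono (Set.image_mono fun g hg =>
      hg.imp id (kervArf_of_kerv hcup hfund hconv))
  · have e1 : (ST.hur (d := d)) = (T0.hur hd) := funext fun g => ST.hur_eq hd g
    have h2 := T0.V_le hd (fun g : T0.BMap d => ST.IsHopf (d := d) g ∨ KervArf (d := d) g)
    intro x hx
    have hx' : x ∈ Submodule.span (ZMod 2)
      (ST.hur (d := d) '' {g | ST.IsHopf g ∨ KervArf g}) := hx
    rw [e1] at hx'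
    obtain ⟨g, hg⟩ := h2 hx'
    exact ⟨g, (ST.hur_eq hd g).trans hg⟩

end Vale.Agent.P263A
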