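import Vale.Agent.P263B6.Fin
import Vale.Agent.P263B14.Cup
import Vale.Agent.P263B25.Fund
import Vale.Agent.P263B15.Rows

/-!
# P263, Arf invariant: the statement from Brown's theorem
-/

open CategoryTheory OnePoint

namespace Vale.Agent.P263A

open Vale.Agent.P263.ST Vale.Agent.P263.FR

theorem conv_of (h : P263B15.CONV) : CONV :=
  fun N _ _ _ q i hq c hc x x₀ hx dx hx₀ dx₀ h1 h0 =>
    h i q (TopCat.of N) (TopCat.ofHom c) c hc (fun _ => rfl) hq x₀ hx₀ dx₀ h1 x hx dx h0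

theorem top (h : P263B15.CONV) :
    (∀ d : ℕ, 0 < d → Set.range (hur (d := d)) = VArf d) ∧
    (∀ (d : ℕ) (g : BMap d), 0 < d → hur g ≠ 0 → (d = 1 ∨ d = 3 ∨ d = 7) ∨ KervArf g) ∧
    (∀ d : ℕ, d = 1 ∨ d = 3 ∨ d = 7 → ∃ g : BMap d, IsHopf g) ∧
    (∀ (d : ℕ) (g : BMap d), 0 < d →
      ∃ (n : ℕ) (F₀ F : Sph (d + n) ⟶ Sph n) (c : Sph (d + n) ⟶ Th n (Mfd F)),
        Rep g F₀ ∧ Htpc (pt (d + n)) F₀ F ∧ Regular F ∧ IsCollapse F c) ∧
    (∀ (X : TopCat.{0}) (p q n : ℕ) (h : p + q = n) (x : Coh p X) (y : Coh q X),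
      ∃! w : Coh n X, IsCup h x y w) ∧
    ∀ (d q n : ℕ) (h : q + q = d) (F : Sph (d + n) ⟶ Sph n), 0 < q → F (pt (d + n)) = pt n →
      Regular F → (∃! z : (H d).obj (Mfd F), IsFund z) ∧
        ∀ (c : Sph (d + n) ⟶ Th n (Mfd F)) (z : (H d).obj (Mfd F)), IsCollapse F c → IsFund z →
          IsArfForm (fun x y : Coh q (Mfd F) => cup h x y z) (phi c) :=
  have h1 := P263B14.cup_row
  have h2 := P263B25.fund tub
  have h3 := conv_of h
  ⟨curtisArf h1 h2 h3, curtisArfElt h1 h2 h3, fun _ => exists_isHopf, exists_framed,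
    fun X p q n h => (h1 X p q n h).1, fun d q n h F hq hF hR =>
      (framed h1 h2 h3 d q n h F hq hF hR).imp id fun h4 c z hc hz => (h4 c z hc hz).1⟩

end Vale.Agent.P263A
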