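import Mathlib.Geometry.Manifold.PartitionOfUnity
import Vale.Agent.P263B6.Rows
import Vale.Agent.P263.FR.Germ

/-!
# P263, Arf invariant: the tubular neighbourhood of a regular map
-/

open CategoryTheory OnePoint Topology Filter Manifold

namespace Vale.Agent.P263A

open Vale.Agent.P263 Vale.Agent.P263.FR Vale.Agent.P263.ST

theorem exists_ext {m K : ℕ} {O C : Set (Fin m → ℝ)} (hO : IsOpen O) (hC : IsClosed C)
    (hCO : C ⊆ O) {f₀ : (Fin m → ℝ) → (Fin K → ℝ)}
    (hf : ContDiffOn ℝ ((⊤ : ℕ∞) : WithTop ℕ∞) f₀ O) :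
    ∃ f : (Fin m → ℝ) → (Fin K → ℝ), ContDiff ℝ ((⊤ : ℕ∞) : WithTop ℕ∞) f ∧
      ∀ x ∈ C, f x = f₀ x := by
  obtain ⟨χ, h0, h1, -⟩ := exists_contMDiffMap_zero_one_nhds_of_isClosed
    (modelWithCornersSelf ℝ (Fin m → ℝ)) (n := (⊤ : ℕ∞)) hO.isClosed_compl hC
    (Set.disjoint_left.2 fun x hx hx' => hx (hCO hx'))
  have hχ : ContDiff ℝ ((⊤ : ℕ∞) : WithTop ℕ∞) χ := χ.contMDiff.contDiff
  refine ⟨fun x => χ x • f₀ x, contDiff_iff_contDiffAt.2 fun x => ?_, fun x hx => ?_⟩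
  · by_cases hx : x ∈ O
    · exact hχ.contDiffAt.smul (hf.contDiffAt (hO.mem_nhds hx))
    · have h2 : ∀ᶠ y in 𝓝 x, χ y = 0 := h0.filter_mono (nhds_le_nhdsSet (show x ∈ Oᶜ from hx))
      refine (contDiffAt_const (c := (0 : Fin K → ℝ))).congr_of_eventuallyEq ?_
      filter_upwards [h2] with y hy
      rw [hy, zero_smul]
  · show χ x • f₀ x = f₀ x
    rw [h1.self_of_nhdsSet x hx, one_smul]

variable {m K : ℕ} {F : Sph m ⟶ Sph K}

theorem isCompact_Z (hF : F (pt m) = pt K) : IsCompact {v : Fin m → ℝ | F (at' v) = at' 0} := by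
  have h1 : ((↑) '' {v : Fin m → ℝ | F (at' v) = at' 0} : Set (OnePoint (Fin m → ℝ))) =
      (fun z : OnePoint (Fin m → ℝ) => (show OnePoint (Fin K → ℝ) from F z)) ⁻¹'
        {((0 : Fin K → ℝ) : OnePoint (Fin K → ℝ))} := by
    ext z
    constructor
    · rintro ⟨v, hv, rfl⟩
      exact hv
    · intro hz
      induction z using OnePoint.rec with
      | infty => exact absurd (hF.symm.trans hz) (OnePoint.infty_ne_coe _)
      | coe v => exact ⟨v, hz, rfl⟩
  have h2 : IsClosed ((↑) '' {v : Fin m → ℝ | F (at' v) = at' 0} : Set (OnePoint (Fin m → ℝ))) := by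
    rw [h1]
    have h3 : Continuous fun z : OnePoint (Fin m → ℝ) => (show OnePoint (Fin K → ℝ) from F z) :=
      F.hom.continuous
    exact isClosed_singleton.preimage h3
  exact (OnePoint.isClosed_image_coe.1 h2).2

theorem compactSpace_Mfd (hF : F (pt m) = pt K) : CompactSpace (Mfd F) :=
  isCompact_iff_compactSpace.1 (isCompact_Z hF)

theorem t2Space_Mfd : T2Space (Mfd F) :=
  inferInstanceAs (T2Space {x : Fin m → ℝ // F (at' x) = at' 0})

theorem collapse_pt {c : Sph m ⟶ Th K (Mfd F)} (hF : F (pt m) = pt K) (hc : IsCollapse F c) :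
    c (pt m) = ∞ :=
  fstT_eq_infty.1 ((hc.1 (pt m)).trans hF)

/-- a `Tub` with the same map near the same zeros -/
theorem exists_tub_eq (hF : F (pt m) = pt K) (hR : Regular F) :
    ∃ D : Tub m K, (∀ x ∈ D.C, F (at' x) = at' (D.f x)) ∧ ∀ x, F (at' x) = at' 0 → x ∈ D.C := by
  obtain ⟨O, f₀, hO, hf₀, hFO, hreg⟩ := hR
  obtain ⟨C, hC, hZC, hCO⟩ := exists_compact_between (isCompact_Z hF) hO fun v hv => (hreg v hv).1
  obtain ⟨f, hf, hff⟩ := exists_ext hO hC.isClosed hCO hf₀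
  have hFf : ∀ x ∈ C, F (at' x) = at' (f x) := fun x hx => by rw [hff x hx, hFO x (hCO hx)]
  have hZ : ∀ x ∈ C, f x = 0 → F (at' x) = at' 0 := fun x hx h0 => by rw [hFf x hx, h0]
  have hz : ∀ x ∈ C, f x = 0 → x ∈ interior C := fun x hx h0 => hZC (hZ x hx h0)
  have hsurj : ∀ x ∈ C, f x = 0 → Function.Surjective (fderiv ℝ f x) := by
    intro x hx h0
    have h1 : f =ᶠ[𝓝 x] f₀ := by
      filter_upwards [mem_interior_iff_mem_nhds.1 (hz x hx h0)] with y hy using hff y hy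
    rw [h1.fderiv_eq]
    exact (hreg x (hZ x hx h0)).2
  obtain ⟨δ₀, hδ₀, hmin⟩ := (hC.diff isOpen_interior (t := interior C)).exists_forall_le'
    (f := fun x => qn (f x)) (a := 0) (continuous_qn.comp hf.continuous).continuousOn
    fun x hx => qn_pos fun h => hx.2 (hz x hx.1 h)
  obtain ⟨δ, hδ, ρ, hρc, hρ, hρi, L, hL⟩ := exists_retraction (hf.of_le
    (WithTop.coe_le_coe.2 (le_top : (1 : ℕ∞) ≤ ⊤))) isOpen_interior hC interior_subset hz
    (fun x hx h0 => hsurj x (interior_subset hx) h0) isOpen_interior (fun x hx _ => hx)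
  let s : ℝ := max (1 / δ₀) (1 / δ ^ 2)
  have hs0 : 1 / δ₀ ≤ s := le_max_left _ _
  have hs : 0 < s := lt_of_lt_of_le (by positivity) hs0
  have hsδ : ∀ x : Fin m → ℝ, s * qn (f x) ≤ 1 → ‖f x‖ ≤ δ := by
    intro x hx
    have h1 : 1 / δ ^ 2 * qn (f x) ≤ 1 :=
      (mul_le_mul_of_nonneg_right (le_max_right _ _) (qn_nonneg _)).trans hx
    have h2 : qn (f x) ≤ δ ^ 2 := by
      rw [one_div, inv_mul_le_iff₀ (by positivity), mul_one] at h1
      exact h1
    exact norm_le_of_qn h2 hδ.le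
  refine ⟨{ f := f, smooth := hf, C := C, U := interior C, isOpen_U := isOpen_interior
            isCompact_C := hC, subset := interior_subset, s := s, s_pos := hs
            far := fun x hx hxU => ?_
            surj := hsurj
            ρ := ρ
            ρ_cont := hρc.mono fun x hx => ⟨hx.1, hsδ x hx.2⟩
            ρ_mem := fun x hx h =>
              ⟨interior_subset (hρ x hx (hsδ x h)).1, (hρ x hx (hsδ x h)).2.1⟩
            ρ_seg := fun x hx h => (hρ x hx (hsδ x h)).2.2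
            ρ_id := fun x hx h0 => hρi x (hz x hx h0) h0
            L := L
            ρ_near := fun x hx h => hL x hx (hsδ x h) }, hFf,
    fun x hx => interior_subset (hZC hx)⟩
  have h2 : δ₀ ≤ qn (f x) := hmin x ⟨hx, hxU⟩
  have h4 : 1 = 1 / δ₀ * δ₀ := by field_simp
  rw [h4]
  exact mul_le_mul hs0 h2 hδ₀.le hs.le

theorem at'_inj {n : ℕ} {v w : Fin n → ℝ} (h : at' v = at' w) : v = w := OnePoint.coe_injective h

theorem tub : TUB := by
  intro m K F hF hR
  obtain ⟨D, hFf, hZC⟩ := exists_tub_eq hF hR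
  have hN : CompactSpace (Mfd F) := compactSpace_Mfd hF
  have hiff : ∀ x, D.F (at' x) = at' 0 ↔ F (at' x) = at' 0 := fun x => by
    rw [D.F_eq_zero]
    constructor
    · rintro ⟨h1, h2⟩
      rw [hFf x h1, h2]
    · intro h
      exact ⟨hZC x h, at'_inj ((hFf x (hZC x h)).symm.trans h)⟩
  let l : Mfd D.F ≃ₜ Mfd F :=
    { toFun := fun v => ⟨v.1, (hiff v.1).1 v.2⟩
      invFun := fun v => ⟨v.1, (hiff v.1).2 v.2⟩
      left_inv := fun _ => rfl
      right_inv := fun _ => rfl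
      continuous_toFun := continuous_subtype_val.subtype_mk _
      continuous_invFun := continuous_subtype_val.subtype_mk _ }
  refine ⟨D, l, fun c hc cN hcN => ?_⟩
  have hfst : ∀ z, fstT (cN z) = F z := fun z =>
    (congrArg fstT (hcN z)).symm.trans (hc.1 z)
  have hne : ∀ x ∈ D.C, cN (x : OnePoint (Fin m → ℝ)) ≠ ∞ := fun x hx h => by
    have h1 := hfst (x : OnePoint (Fin m → ℝ))
    rw [h] at h1
    exact OnePoint.infty_ne_coe _ (h1.trans (hFf x hx))
  obtain ⟨A, hA⟩ : ∃ A : Set (Fin m → ℝ), A = {x | x ∈ D.C ∧ D.s * qn (D.f x) ≤ 1 / 2} := ⟨_, rfl⟩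
  have hq : Continuous fun x => D.s * qn (D.f x) :=
    continuous_const.mul (continuous_qn.comp D.smooth.continuous)
  have hAc : IsCompact A := by
    rw [hA]
    exact D.isCompact_C.inter_right (isClosed_le hq continuous_const)
  obtain ⟨O, hO⟩ : ∃ O : Set (OnePoint (Fin m → ℝ)), O = (↑) '' A := ⟨_, rfl⟩
  have hOc : IsClosed O := by
    rw [hO]
    exact OnePoint.isClosed_image_coe.2 ⟨hAc.isClosed, hAc⟩
  have hmem : ∀ z ∈ O, ∃ x : Fin m → ℝ, z = x ∧ x ∈ D.C ∧ D.s * qn (D.f x) ≤ 1 / 2 := by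
    intro z hz
    rw [hO, hA] at hz
    obtain ⟨x, hx, rfl⟩ := hz
    exact ⟨x, rfl, hx⟩
  have hint : ∀ x ∈ D.C, D.f x = 0 → (x : OnePoint (Fin m → ℝ)) ∈ interior O := by
    intro x hx h0
    have h1 : IsOpen ((↑) '' {y | y ∈ D.U ∧ D.s * qn (D.f y) < 1 / 2} :
        Set (OnePoint (Fin m → ℝ))) :=
      OnePoint.isOpen_image_coe.2 (D.isOpen_U.inter (isOpen_lt hq continuous_const))
    refine interior_maximal ?_ h1 ⟨x, ⟨D.mem_U_of hx ?_, ?_⟩, rfl⟩
    · rw [hO, hA]
      exact Set.image_mono fun y hy => ⟨D.subset hy.1, hy.2.le⟩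
    · rw [h0, qn_zero]
      norm_num
    · rw [h0, qn_zero]
      norm_num
  have hcrd : Continuous fun q : {q : unitInterval × OnePoint (Fin m → ℝ) | q.2 ∈ O} =>
      crd q.1.2 := by
    rw [continuous_iff_continuousAt]
    intro q
    obtain ⟨x, hx, -, -⟩ := hmem _ q.2
    exact ContinuousAt.comp (g := crd)
      (f := fun q : {q : unitInterval × OnePoint (Fin m → ℝ) | q.2 ∈ O} => q.1.2)
      (continuousAt_crd (by rw [hx]; exact OnePoint.coe_ne_infty _))
      (continuous_snd.comp continuous_subtype_val).continuousAt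
  have ht : Continuous fun q : {q : unitInterval × OnePoint (Fin m → ℝ) | q.2 ∈ O} =>
      ((q.1.1 : ℝ)) := continuous_subtype_val.comp (continuous_fst.comp continuous_subtype_val)
  have hseg : ∀ q : unitInterval × OnePoint (Fin m → ℝ), q.2 ∈ O →
      (1 - (q.1 : ℝ)) • crd q.2 + (q.1 : ℝ) • D.ρ (crd q.2) ∈ D.C := by
    rintro ⟨t, z⟩ hq
    obtain ⟨x, rfl, hx, h1⟩ := hmem z hq
    refine D.subset (D.ρ_seg x hx (by linarith) ?_)
    exact ⟨1 - (t : ℝ), t, sub_nonneg.2 t.2.2, t.2.1, sub_add_cancel _ _, rfl⟩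
  refine germT hOc
    (fun q => ((1 - (q.1 : ℝ)) + (q.1 : ℝ) * (1 - D.s * qn (D.f (crd q.2)))⁻¹) • D.f (crd q.2)) ?_
    (fun q => sndT cN ⟨(((1 - (q.1.1 : ℝ)) • crd q.1.2 + (q.1.1 : ℝ) • D.ρ (crd q.1.2) :
      Fin m → ℝ) : OnePoint (Fin m → ℝ)), hne _ (hseg q.1 q.2)⟩) ?_ ?_ ?_ ?_ ?_ ?_ ?_ ?_
  · rw [continuousOn_iff_continuous_domRestrict]
    refine Continuous.smul ((continuous_const.sub ht).add (ht.mul (Continuous.inv₀
      (continuous_const.sub (hq.comp hcrd)) fun q => ?_))) (D.smooth.continuous.comp hcrd)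
    obtain ⟨x, hx, -, h1⟩ := hmem _ q.2
    show 1 - D.s * qn (D.f (crd q.1.2)) ≠ 0
    rw [hx, crd_coe]
    linarith
  · refine (continuous_sndT cN.continuous).comp
      (Continuous.subtype_mk (OnePoint.continuous_coe.comp ?_) _)
    refine ((continuous_const.sub ht).smul hcrd).add (ht.smul ?_)
    refine D.ρ_cont.comp_continuous hcrd fun q => ?_
    obtain ⟨x, hx, hC, h1⟩ := hmem _ q.2
    rw [hx]
    exact ⟨hC, by show D.s * qn (D.f x) ≤ 1; linarith⟩
  · intro z hz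
    obtain ⟨x, rfl, hx, h1⟩ := hmem z hz
    obtain ⟨v, hv⟩ := exists_coe_sndT cN ⟨(x : OnePoint (Fin m → ℝ)), hne x hx⟩
    have h2 : v = D.f x := by
      have h3 := hfst (x : OnePoint (Fin m → ℝ))
      rw [show cN (x : OnePoint (Fin m → ℝ)) = _ from hv] at h3
      exact at'_inj (h3.trans (hFf x hx))
    refine (show cN (x : OnePoint (Fin m → ℝ)) = _ from hv).trans ?_
    rw [h2]
    congr 2
    · simp
    · congr 2
      simp
  · intro z hz
    obtain ⟨x, rfl, hx, h1⟩ := hmem z hz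
    have h2 : D.F0 (x : OnePoint (Fin m → ℝ)) = _ := D.F0_of_lt hx (by linarith)
    have h3 : D.F0 (x : OnePoint (Fin m → ℝ)) ≠ ∞ := by
      rw [h2]; exact OnePoint.coe_ne_infty _
    have h4 : D.lc (l : C(Mfd D.F, Mfd F)) (x : OnePoint (Fin m → ℝ)) =
        prT (D.F0 (x : OnePoint (Fin m → ℝ))) (l (D.ret ⟨x, h3⟩)) :=
      pairS_of_mem (S := {z | D.F0 z ≠ ∞}) h3
    rw [h4, h2, prT_coe]
    congr 2
    · simp
    · have h5 : ∀ (y : Fin m → ℝ) (hy : cN (y : OnePoint (Fin m → ℝ)) ≠ ∞) (v : Mfd F), v.1 = y →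
          v = sndT cN ⟨(y : OnePoint (Fin m → ℝ)), hy⟩ := by
        rintro _ hy v rfl
        obtain ⟨w, hw⟩ := exists_coe_sndT cN ⟨((v.1 : Fin m → ℝ) : OnePoint (Fin m → ℝ)), hy⟩
        have h6 := (hc.2 v).symm.trans ((hcN _).trans hw)
        exact congrArg Prod.snd (OnePoint.coe_injective h6)
      refine h5 _ _ _ ?_
      show D.ρ x = _
      simp
  · intro τ z hz h0
    obtain ⟨x, rfl, hx, h1⟩ := hmem z hz
    refine hint x hx ?_
    rcases smul_eq_zero.1 h0 with h2 | h2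
    · exfalso
      have h3 : 0 < 1 - D.s * qn (D.f x) := by linarith
      have h4 : 1 ≤ (1 - D.s * qn (D.f x))⁻¹ := by
        rw [le_inv_comm₀ one_pos h3, inv_one]
        have := mul_nonneg D.s_pos.le (qn_nonneg (D.f x))
        linarith
      have h5 : (1 - (τ : ℝ)) + (τ : ℝ) * (1 - D.s * qn (D.f x))⁻¹ = 0 := h2
      nlinarith [τ.2.1, τ.2.2]
    · exact h2
  · intro z x hz
    have h1 := hfst z
    rw [hz] at h1
    induction z using OnePoint.rec with
    | infty => exact absurd (h1.trans hF) (OnePoint.coe_ne_infty _)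
    | coe y =>
      have h2 := D.F_eq_zero.1 ((hiff y).2 h1.symm)
      exact hint y h2.1 h2.2
  · intro z x hz
    have h1 : fstT (D.lc (l : C(Mfd D.F, Mfd F)) z) = D.F0 z := map_fst_pairS (fun _ h => h) z
    rw [hz] at h1
    induction z using OnePoint.rec with
    | infty => exact absurd h1 (OnePoint.coe_ne_infty _)
    | coe y =>
      have h2 := D.F0_eq_zero.1 h1.symm
      exact hint y h2.1 h2.2
  · rintro z rfl
    exact (hcN _).symm.trans (collapse_pt hF hc)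
  · rintro z rfl
    exact D.lc_infty _

end Vale.Agent.P263A
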